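import Vale.Agent.P362b.Fin

theorem Vale.Agent.Results.P362.Four.result :
    IsLeast Vale.Agent.P362b.Exponents 4 ∧ sInf Vale.Agent.P362b.Exponents = 4 :=
  ⟨Vale.Agent.P362b.main, Vale.Agent.P362b.main.csInf_eq⟩
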